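import Vale.Agent.P207.H379.RotT
import Vale.Agent.P207.H379.Fam
import Vale.Agent.P207.H158.Adm2
import Vale.Agent.P207.H395.SSp2
import Vale.Agent.P207.Kat.Spec
import Vale.Agent.P207.H608.Adm

/-!
# P207 / H379: the group form of the interfaces of `Kat.Spec`

`rotAll g`, `rotStab g`: the rotations of the frames in the language of H158. The classes
`Kat.GT1`, `Kat.GT2`, `Kat.GAdm` in that language and in the language of H379; tensors in the
infinitesimal form; the geodesic flow.
-/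

open scoped Manifold ContDiff ENNReal Topology
open Bundle MeasureTheory Set Filter

noncomputable section

set_option maxSynthPendingDepth 3
set_option linter.unusedSectionVars false

namespace Vale.Agent.P207.H379

open Vale.Agent.P255 (RMetric coefIn Gam Riem IsGeo Metric Npc ExpSys toMetric geo expg cc trans
  IsGeodesic coefL chris chrisB IsMetricOn covD)
open Vale.Agent.P207 Vale.Agent.P207.Q Vale.Agent.P207.Q.H545 Vale.Agent.P207.Q.H743
open Vale.Agent.P207.H442 (frCalc Hd Vd Rs ev ext_ev ev_sum ev_smul intF)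

variable {n : ℕ} {M : Type} [TopologicalSpace M] [ChartedSpace (EV n) M]
  [IsManifold 𝓘(ℝ, EV n) ∞ M] {g : RMetric (EV n) M}
variable [NeZero n] [CompactSpace M] [T2Space M] [Nonempty (Fr g)]

/-- the rotations of the frames in the language of H158 -/
theorem isRot (B : OnG n) : H158.IsRot (frCalc g) B.1 (rotE B) where
  orth := orth_right B
  H i f := (rotAct g).H B i f
  V i j f := by
    refine ((rotAct g).V B i j f).trans ?_
    simp only [rt, Finset.smul_sum, smul_smul]
    rfl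
  R i j k l := by
    refine ((rotAct g).R B i j k l).trans ?_
    simp only [rt, Finset.smul_sum, smul_smul, ← mul_assoc]

variable (g) in
/-- all rotations of the frames -/
def rotAll : H158.RotAct (frCalc g) (OnG n) where
  a B := B.1
  E B := rotE B
  rot := isRot

variable (g) in
/-- the rotations of the frames which fix the first vector -/
def rotStab : H158.StabAct (frCalc g) (H892.Stab n) where
  a B := B.1.1
  E B := rotE B.1
  rot B := isRot B.1
  col B j := fix0_stab B.1 B.2 j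

theorem ev_rotE_eq {B : OnG n} {f h : SmFr g} :
    rotE B f = h ↔ ∀ p, ev (Fr.rot B p) f = ev p h := by
  constructor
  · intro h1 p
    rw [← ev_rotE, h1]
  · intro h1
    apply ext_ev
    intro p
    rw [ev_rotE, h1]

theorem gT1_iff {w : Fin n → SmFr g} : Kat.GT1 w ↔ w ∈ (rotAll g).vec := by
  rw [H158.RotAct.mem_vec]
  refine ⟨fun h B i => ev_rotE_eq.2 fun p => ?_, fun h B p i => ?_⟩
  · rw [h B p i]
    simp only [ev_sum, ev_smul]
    rfl
  · rw [ev_rotE_eq.1 (h B i) p]
    simp only [ev_sum, ev_smul]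
    rfl

theorem gT2_iff {k : Fin n → Fin n → SmFr g} :
    Kat.GT2 k ↔ (∀ i j, k i j = k j i) ∧ k ∈ (rotAll g).mat := by
  rw [H158.RotAct.mem_mat]
  refine ⟨fun h => ⟨h.1, fun B i j => ev_rotE_eq.2 fun p => ?_⟩, fun h => ⟨h.1, fun B p i j => ?_⟩⟩
  · rw [h.2 B p i j]
    simp only [ev_sum, ev_smul]
    rfl
  · rw [ev_rotE_eq.1 (h.2 B i j) p]
    simp only [ev_sum, ev_smul]
    rfl

theorem gAdm_iff {y : Fin n → SmFr g} : Kat.GAdm y ↔ y ∈ (rotStab g).adm := by
  rw [H158.StabAct.mem_adm]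
  refine ⟨fun h => ⟨fun B i => ev_rotE_eq.2 fun p => ?_, h.1⟩, fun h => ⟨h.2, fun B hB p i => ?_⟩⟩
  · rw [h.2 B.1 B.2 p i]
    simp only [ev_sum, ev_smul]
    rfl
  · rw [ev_rotE_eq.1 (h.1 ⟨B, hB⟩ i) p]
    simp only [ev_sum, ev_smul]
    rfl

theorem gT1_iff' {w : Fin n → SmFr g} : Kat.GT1 w ↔ (rotAct g).GT1 univ w := by
  rw [gT1_iff, H158.RotAct.mem_vec]
  exact ⟨fun h B _ i => h B i, fun h B i => h B (mem_univ _) i⟩

theorem gT2_iff' {k : Fin n → Fin n → SmFr g} :
    Kat.GT2 k ↔ (∀ i j, k i j = k j i) ∧ (rotAct g).GT2 univ k := by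
  rw [gT2_iff, H158.RotAct.mem_mat]
  refine and_congr_right fun _ => ⟨fun h B _ i j => ?_, fun h B i j => ?_⟩
  · refine (h B i j).trans ?_
    simp only [rt, Finset.smul_sum, smul_smul]
    rfl
  · refine (h B (mem_univ _) i j).trans ?_
    simp only [rt, Finset.smul_sum, smul_smul]
    rfl

theorem gAdm_iff' {y : Fin n → SmFr g} :
    Kat.GAdm y ↔ (rotAct g).AdmG (H892.Stab n : Set (OnG n)) y := by
  rw [gAdm_iff, H158.StabAct.mem_adm]
  exact ⟨fun h => ⟨h.2, fun B hB i => h.1 ⟨B, hB⟩ i⟩, fun h => ⟨fun B i => h.2 B.1 B.2 i, h.1⟩⟩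

/-- tensors in the infinitesimal form -/
theorem t1_of_GT1 {w : Fin n → SmFr g} (h : Kat.GT1 w) : (frCalc g).T1 w :=
  t1_of_group (gT1_iff'.1 h)

theorem t2_of_GT2 {k : Fin n → Fin n → SmFr g} (h : Kat.GT2 k) : (frCalc g).T2 k :=
  t2_of_group (gT2_iff'.1 h).2

/-- equivariance under all rotations implies equivariance under the stabiliser -/
theorem scal_stab {f : SmFr g} (h : f ∈ (rotAll g).scal) : f ∈ (rotStab g).toRotAct.scal :=
  fun B => h B.1

theorem vec_stab {w : Fin n → SmFr g} (h : w ∈ (rotAll g).vec) :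
    w ∈ (rotStab g).toRotAct.vec := fun B i => h B.1 i

theorem mat_stab {k : Fin n → Fin n → SmFr g} (h : k ∈ (rotAll g).mat) :
    k ∈ (rotStab g).toRotAct.mat := fun B i j => h B.1 i j

/-- `v ↦ k(v, v)` is a function on the unit tangent bundle -/
theorem k00_scal {k : Fin n → Fin n → SmFr g} (h : Kat.GT2 k) :
    k 0 0 ∈ (rotStab g).toRotAct.scal := H158.StabAct.mat_zero (mat_stab (gT2_iff.1 h).2)

/-- the admissible fields in the form of H608 -/
theorem adm_of_GAdm {y : Fin n → SmFr g} (h : Kat.GAdm y) :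
    H608.Adm (g₀ := g) fun i p => (y i : C(Fr g, ℝ)) p where
  smooth i := (y i).2
  zero f := by rw [h.1]; rfl
  equiv B hB f i := h.2 B hB f i

/-! ### the integral, the flows -/

section Flow

variable {Φ : ℝ → Fr g → Fr g}

/-- the frame flow commutes with the rotations which fix the first vector -/
theorem rot_flow (h : IsHorFlow g (Pi.single 0 1) Φ) {B : OnG n} (hB : B ∈ H892.Stab n) (t : ℝ)
    (p : Fr g) : Φ t (Fr.rot B p) = Fr.rot B (Φ t p) := by
  refine h.rot h B ?_ t p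
  exact mulVec_of_mem_Stab hB

/-- the composition with the frame flow -/
def flowE (h : IsHorFlow g (Pi.single 0 1) Φ) (t : ℝ) : SmFr g →ₐ[ℝ] SmFr g where
  toFun f := ⟨⟨fun p => (f : C(Fr g, ℝ)) (Φ t p), (SmF.comp_JSm f.2 h.jsm t).continuous⟩,
    SmF.comp_JSm f.2 h.jsm t⟩
  map_one' := rfl
  map_mul' _ _ := rfl
  map_zero' := rfl
  map_add' _ _ := rfl
  commutes' _ := rfl

theorem ev_flowE (h : IsHorFlow g (Pi.single 0 1) Φ) (t : ℝ) (f : SmFr g) (p : Fr g) :
    ev p (flowE h t f) = ev (Φ t p) f := rfl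

theorem rotE_flowE (h : IsHorFlow g (Pi.single 0 1) Φ) {B : OnG n} (hB : B ∈ H892.Stab n) (t : ℝ)
    (f : SmFr g) : rotE B (flowE h t f) = flowE h t (rotE B f) := by
  apply ext_ev
  intro p
  rw [ev_rotE, ev_flowE, ev_flowE, ev_rotE, rot_flow h hB]

theorem flowE_scal (h : IsHorFlow g (Pi.single 0 1) Φ) (t : ℝ) {f : SmFr g}
    (hf : f ∈ (rotStab g).toRotAct.scal) : flowE h t f ∈ (rotStab g).toRotAct.scal := fun B =>
  (rotE_flowE h B.2 t f).trans (congrArg _ (hf B))

theorem flowE_vec (h : IsHorFlow g (Pi.single 0 1) Φ) (t : ℝ) {w : Fin n → SmFr g}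
    (hw : w ∈ (rotStab g).toRotAct.vec) :
    (fun i => flowE h t (w i)) ∈ (rotStab g).toRotAct.vec := fun B i => by
  refine (rotE_flowE h B.2 t (w i)).trans ?_
  have h1 := congrArg (flowE h t) (hw B i)
  rw [map_sum] at h1
  simp only [map_smul] at h1
  exact h1

theorem flowE_adm (h : IsHorFlow g (Pi.single 0 1) Φ) (t : ℝ) {y : Fin n → SmFr g}
    (hy : y ∈ (rotStab g).adm) : (fun i => flowE h t (y i)) ∈ (rotStab g).adm :=
  ⟨flowE_vec h t hy.1, by
    change flowE h t (y 0) = 0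
    rw [hy.2, map_zero]⟩

end Flow

/-! ### spectral projections of equivariant families -/

section Spec

variable {E : Type*} [AddCommGroup E] [Module ℝ E] {S : H395.SSp E}

/-- families fixed by operators which commute with `L` and have an adjoint: the projections -/
theorem P_fixed {ι : Type*} {D : ι → E →ₗ[ℝ] E} (hD : ∀ s, H395.SSp.Nt S S (D s)) {x : E}
    (hx : ∀ s, D s x = x) (l : ℝ) (s : ι) : D s (S.P l x) = S.P l x := by
  rw [(hD s).P, hx]

theorem res_fixed {ι : Type*} {D : ι → E →ₗ[ℝ] E} (hD : ∀ s, H395.SSp.Nt S S (D s)) {x : E}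
    (hx : ∀ s, D s x = x) {c : ℝ} (hc : S.Big c) (s : ι) : D s (S.res c hc x) = S.res c hc x := by
  rw [(hD s).res hc hc, hx]

theorem fc_fixed {ι : Type*} {D : ι → E →ₗ[ℝ] E} (hD : ∀ s, H395.SSp.Nt S S (D s)) {x : E}
    (hx : ∀ s, D s x = x) {a : ℝ → ℝ} (ha : S.Gr a) (s : ι) : D s (S.fc a ha x) = S.fc a ha x := by
  rw [(hD s).fc ha ha, hx]

end Spec

end Vale.Agent.P207.H379
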