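import Vale.Agent.P207.H379.Rt
import Vale.Agent.P207.H442.FrC2
import Vale.Agent.P207.Q.H130.Desc

/-!
# P207 / H379: the orthogonal group acts on the calculus of the orthonormal frame bundle
-/

open scoped Manifold ContDiff ENNReal Topology
open Bundle MeasureTheory Set Filter

noncomputable section

set_option maxSynthPendingDepth 3
set_option linter.unusedSectionVars false

namespace Vale.Agent.P207.H379

open Vale.Agent.P255 (RMetric coefIn Gam Riem IsGeo Metric Npc ExpSys toMetric geo expg cc trans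
  IsGeodesic coefL chris chrisB IsMetricOn covD)
open Vale.Agent.P207 Vale.Agent.P207.Q Vale.Agent.P207.Q.H545 Vale.Agent.P207.Q.H743
open Vale.Agent.P207.H442 (frCalc Hd Vd Rs ev ext_ev verLin verLin_apply isGen_rot' intF)

section Gen

variable {n : ℕ}

theorem orth_tm (B : OnG n) : B.1.transpose * B.1 = 1 :=
  (Matrix.mem_orthogonalGroup_iff' (Fin n) ℝ).1 B.2

theorem orth_mt (B : OnG n) : B.1 * B.1.transpose = 1 :=
  (Matrix.mem_orthogonalGroup_iff (Fin n) ℝ).1 B.2

/-- the conjugate of a generator -/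
theorem isGen_conj {A : Matrix (Fin n) (Fin n) ℝ} (hA : IsGen A) (B : OnG n) :
    IsGen (B.1 * A * B.1.transpose) := by
  have h1 := orth_tm B
  refine ⟨?_, ?_⟩
  · rw [Matrix.transpose_mul, Matrix.transpose_mul, Matrix.transpose_transpose, hA.skew]
    simp only [Matrix.neg_mul, Matrix.mul_neg, Matrix.mul_assoc]
  · calc B.1 * A * B.1.transpose * (B.1 * A * B.1.transpose) * (B.1 * A * B.1.transpose)
        = B.1 * A * (B.1.transpose * B.1) * A * (B.1.transpose * B.1) * A * B.1.transpose := by
          simp only [Matrix.mul_assoc]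
      _ = B.1 * (A * A * A) * B.1.transpose := by
          rw [h1]
          simp only [Matrix.mul_one, Matrix.mul_assoc]
      _ = -(B.1 * A * B.1.transpose) := by
          rw [hA.cube]
          simp only [Matrix.neg_mul, Matrix.mul_neg]

/-- the rotation of the conjugate generator -/
theorem rotM_conj (A : Matrix (Fin n) (Fin n) ℝ) (B : OnG n) (θ : ℝ) :
    rotM (B.1 * A * B.1.transpose) θ = B.1 * rotM A θ * B.1.transpose := by
  have h1 := orth_tm B
  have h2 := orth_mt B
  have h3 : B.1 * A * B.1.transpose * (B.1 * A * B.1.transpose) =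
      B.1 * (A * A) * B.1.transpose := by
    calc B.1 * A * B.1.transpose * (B.1 * A * B.1.transpose)
        = B.1 * A * (B.1.transpose * B.1) * A * B.1.transpose := by simp only [Matrix.mul_assoc]
      _ = _ := by
          rw [h1]
          simp only [Matrix.mul_one, Matrix.mul_assoc]
  unfold rotM
  rw [h3]
  simp only [Matrix.mul_add, Matrix.add_mul, Matrix.mul_one, h2, Matrix.mul_smul, Matrix.smul_mul]

/-- `B (E_ij - E_ji) Bᵀ` in terms of the rotation generators -/
theorem conj_rot (B : OnG n) (i j : Fin n) :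
    B.1 * Brk.rot (ι := Fin n) i j * B.1.transpose =
      rt B.1 (fun a => rt B.1 (fun b => Brk.rot (ι := Fin n) a b) j) i := by
  ext p q
  have e0 : ∀ (T : Fin n → Matrix (Fin n) (Fin n) ℝ) (i : Fin n),
      (rt B.1 T i) p q = ∑ a, B.1 a i * T a p q := by
    intro T i
    simp only [rt, Matrix.sum_apply, Matrix.smul_apply, smul_eq_mul]
  rw [e0]
  simp only [e0]
  have h1 : ∀ a b, Brk.rot (ι := Fin n) a b p q =
      (if a = p then (if b = q then (1 : ℝ) else 0) else 0)
        - (if b = p then (if a = q then (1 : ℝ) else 0) else 0) := fun a b =>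
    H442.rot_apply a b p q
  simp only [h1, mul_sub, mul_ite, mul_one, mul_zero, Finset.sum_sub_distrib,
    Finset.sum_ite_eq', Finset.mem_univ, if_true, Finset.sum_ite_irrel, Finset.sum_const_zero]
  rw [Matrix.mul_apply]
  have h2 : ∀ x, (B.1 * Brk.rot (ι := Fin n) i j) p x =
      B.1 p i * (if j = x then 1 else 0) - B.1 p j * (if i = x then 1 else 0) := by
    intro x
    rw [Matrix.mul_apply]
    have h3 : ∀ y, Brk.rot (ι := Fin n) i j y x =
        (if i = y then (if j = x then (1 : ℝ) else 0) else 0)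
          - (if j = y then (if i = x then (1 : ℝ) else 0) else 0) := fun y =>
      H442.rot_apply i j y x
    simp only [h3, mul_sub, mul_ite, mul_zero, Finset.sum_sub_distrib,
      Finset.sum_ite_eq, Finset.mem_univ, if_true]
  simp only [h2, Matrix.transpose_apply, sub_mul, mul_ite, mul_one, mul_zero, ite_mul, zero_mul,
    Finset.sum_sub_distrib, Finset.sum_ite_eq, Finset.mem_univ, if_true]
  ring

end Gen

variable {n : ℕ} {M : Type} [TopologicalSpace M] [ChartedSpace (EV n) M]
  [IsManifold 𝓘(ℝ, EV n) ∞ M] {g : RMetric (EV n) M}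
variable [NeZero n] [CompactSpace M] [T2Space M] [Nonempty (Fr g)]

/-- the horizontal derivative is linear in the direction -/
theorem dZ_hor_sum (f : Fr g → ℝ) (p : Fr g) (ξ : Fin n → ℝ) :
    dZ (horZ g ξ) f p = ∑ i, ξ i * dZ (horZ g (Pi.single i 1)) f p := by
  unfold dZ
  have h1 : (horZ g ξ).Z p.pt (chF p.pt p.1) =
      ∑ i, ξ i • (horZ g (Pi.single i 1)).Z p.pt (chF p.pt p.1) := by
    simp only [horZ_Z, hF]
    refine Prod.ext ?_ ?_
    · simp only [Prod.fst_sum, Prod.smul_fst]
      refine Finset.sum_congr rfl fun i _ => ?_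
      congr 1
      simp [Pi.single_apply]
    · funext c
      simp only [Prod.snd_sum, Prod.smul_snd, Finset.sum_apply, Pi.smul_apply, Pi.single_apply,
        ite_smul, one_smul, zero_smul, Finset.sum_ite_eq', Finset.mem_univ, if_true]
      simp only [← P255.chrisB_apply, map_sum, map_smul, sum_apply, smul_apply, smul_neg,
        Finset.sum_neg_distrib]
  rw [h1, map_sum]
  simp only [map_smul, smul_eq_mul]

/-- composition with the right action of an orthogonal matrix -/
def rotE (B : OnG n) : SmFr g →ₐ[ℝ] SmFr g where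
  toFun f := ⟨⟨fun p => (f : C(Fr g, ℝ)) (Fr.rot B p), (SmF.comp_rot f.2 B).continuous⟩,
    SmF.comp_rot f.2 B⟩
  map_one' := rfl
  map_mul' _ _ := rfl
  map_zero' := rfl
  map_add' _ _ := rfl
  commutes' _ := rfl

theorem rotE_apply (B : OnG n) (f : SmFr g) (p : Fr g) :
    (rotE B f : C(Fr g, ℝ)) p = (f : C(Fr g, ℝ)) (Fr.rot B p) := rfl

theorem ev_rotE (B : OnG n) (f : SmFr g) (p : Fr g) : ev p (rotE B f) = ev (Fr.rot B p) f := rfl

theorem ev_rt (p : Fr g) (B : Matrix (Fin n) (Fin n) ℝ) (T : Fin n → SmFr g) (i : Fin n) :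
    ev p (rt B T i) = rt B (fun a => ev p (T a)) i := rt_map (ev p) B T i

/-- the horizontal derivatives at a rotated frame -/
theorem Hd_rot (B : OnG n) (i : Fin n) (f : SmFr g) (p : Fr g) :
    ev (Fr.rot B p) (Hd g i f) = rt B.1 (fun a => ev p (Hd g a (rotE B f))) i := by
  set ξ : Fin n → ℝ := B.1.mulVec (Pi.single i 1) with hξ
  have hΨ := isHorFlow_flow g ξ
  have h1 := ((horFlows g).hor i).isFlow.hasDerivAt (f := fun p => (f : C(Fr g, ℝ)) p) f.2
    (Fr.rot B p) 0
  have h2 := hΨ.isFlow.hasDerivAt (f := fun p => (rotE B f : C(Fr g, ℝ)) p) (rotE B f).2 p 0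
  rw [((horFlows g).hor i).isFlow.zero] at h1
  rw [hΨ.isFlow.zero] at h2
  have h3 : ∀ t, (horFlows g).Φ i t (Fr.rot B p) =
      Fr.rot B (Fl.CSys.flow (horVF g ξ) t p) := fun t =>
    ((horFlows g).hor i).rot hΨ B hξ.symm t p
  simp only [h3] at h1
  have h4 := h1.unique h2
  change dZ (horZ g (Pi.single i 1)) (fun p => (f : C(Fr g, ℝ)) p) (Fr.rot B p) = _
  rw [h4, dZ_hor_sum]
  unfold rt
  refine Finset.sum_congr rfl fun a _ => ?_
  rw [smul_eq_mul, hξ, Matrix.mulVec_single_one]
  rfl

/-- the vertical derivatives at a rotated frame -/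
theorem Vd_rot (B : OnG n) (i j : Fin n) (f : SmFr g) (p : Fr g) :
    ev (Fr.rot B p) (Vd g i j f) =
      rt B.1 (fun a => rt B.1 (fun b => ev p (Vd g a b (rotE B f))) j) i := by
  have hA := isGen_rot' (n := n) i j
  have hA' := isGen_conj hA B
  have h1 := (isFlow_ver (g := g) hA).hasDerivAt (f := fun p => (f : C(Fr g, ℝ)) p) f.2
    (Fr.rot B p) 0
  have h2 := (isFlow_ver (g := g) hA').hasDerivAt (f := fun p => (rotE B f : C(Fr g, ℝ)) p)
    (rotE B f).2 p 0
  rw [verFlow_zero] at h1 h2
  have h3 : ∀ t, verFlow hA t (Fr.rot B p) = Fr.rot B (verFlow hA' t p) := by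
    intro t
    unfold verFlow
    rw [Fr.rot_rot, Fr.rot_rot]
    congr 1
    apply Subtype.ext
    change B.1 * rotM (Brk.rot i j) t = rotM (B.1 * Brk.rot i j * B.1.transpose) t * B.1
    rw [rotM_conj, Matrix.mul_assoc, orth_tm, Matrix.mul_one]
  simp only [h3] at h1
  have h4 := h1.unique h2
  change dZ (verZ g (Brk.rot i j)) (fun p => (f : C(Fr g, ℝ)) p) (Fr.rot B p) = _
  rw [h4, ← verLin_apply, conj_rot, rt_map]
  congr 1
  funext a
  rw [rt_map]
  rfl

variable (g) in
/-- **the orthogonal group acts on the calculus of the orthonormal frame bundle** -/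
def rotAct : OnAct (frCalc g) where
  σ := rotE
  one f := by
    apply ext_ev
    intro p
    rw [ev_rotE, Fr.rot_one]
  mul B B' f := by
    apply ext_ev
    intro p
    rw [ev_rotE, ev_rotE, ev_rotE, Fr.rot_rot]
  H B i f := by
    apply ext_ev
    intro p
    rw [ev_rotE, ev_rt]
    exact Hd_rot B i f p
  V B i j f := by
    apply ext_ev
    intro p
    rw [ev_rotE, ev_rt]
    simp only [ev_rt]
    exact Vd_rot B i j f p
  R B i j k l := by
    apply ext_ev
    intro p
    rw [ev_rotE]
    simp only [ev_rt]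
    change Rf g (Fr.rot B p) i j k l = _
    rw [H130.Rf_rot]
    rfl

theorem rotAct_apply (B : OnG n) (f : SmFr g) (p : Fr g) :
    ((rotAct g).σ B f : C(Fr g, ℝ)) p = (f : C(Fr g, ℝ)) (Fr.rot B p) := rfl

/-- the integral is invariant -/
theorem intF_rotE {m : Measure (UT g)} {mP : Measure (Fr g)} [IsFiniteMeasure mP]
    (hP : IsMP m mP) (B : OnG n) (f : SmFr g) : intF mP ((rotAct g).σ B f) = intF mP f := by
  change ∫ p, (f : C(Fr g, ℝ)) (Fr.rot B p) ∂mP = ∫ p, (f : C(Fr g, ℝ)) p ∂mP
  have h1 : MeasurePreserving (Fr.rot B) mP mP := hP.rot B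
  have h3 := integral_map (μ := mP) h1.measurable.aemeasurable
    (f := fun p => (f : C(Fr g, ℝ)) p) ((f : C(Fr g, ℝ)).continuous.aestronglyMeasurable)
  rw [h1.map_eq] at h3
  exact h3.symm

/-- the stabiliser of the first vector -/
theorem fix0_stab : OnAct.Fix0 (n := n) (H892.Stab n : Set (OnG n)) := by
  intro B hB a
  have h1 := congrArg (fun v : EV n => v a) (H892.mem_Stab.1 hB)
  simp only [PiLp.single_apply] at h1
  rw [← h1]
  simp

end Vale.Agent.P207.H379
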