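import Vale.Agent.P207.H379.RotFr
import Vale.Agent.P207.H442.Ten2

/-!
# P207 / H379: families in group form are tensors in the infinitesimal form
-/

open scoped Manifold ContDiff ENNReal Topology
open Bundle MeasureTheory Set Filter

noncomputable section

set_option maxSynthPendingDepth 3
set_option linter.unusedSectionVars false

namespace Vale.Agent.P207.H379

open Vale.Agent.P255 (RMetric coefIn Gam Riem IsGeo Metric Npc ExpSys toMetric geo expg cc trans
  IsGeodesic coefL chris chrisB IsMetricOn covD)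
open Vale.Agent.P207 Vale.Agent.P207.Q Vale.Agent.P207.Q.H545 Vale.Agent.P207.Q.H743
open Vale.Agent.P207.H442 (frCalc Hd Vd Rs ev ext_ev verLin verLin_apply isGen_rot' intF ac
  sum_rot_mul ev_ac ev_add ev_zero hasDerivAt_Vd)

variable {n : ℕ} {M : Type} [TopologicalSpace M] [ChartedSpace (EV n) M]
  [IsManifold 𝓘(ℝ, EV n) ∞ M] {g : RMetric (EV n) M}
variable [NeZero n] [CompactSpace M] [T2Space M] [Nonempty (Fr g)]

omit [NeZero n] in
theorem rotM_deriv {A : Matrix (Fin n) (Fin n) ℝ} (hA : IsGen A) (i j : Fin n) :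
    HasDerivAt (fun θ => rotM A θ i j) (A i j) 0 := by
  have h := hA.hasDerivAt i j 0
  rwa [rotM_zero, one_mul] at h

omit [NeZero n] in
theorem rotM_zero_apply (A : Matrix (Fin n) (Fin n) ℝ) (i j : Fin n) :
    rotM A 0 i j = if i = j then 1 else 0 := by
  rw [rotM_zero, Matrix.one_apply]

theorem ev_verFlow {i j : Fin n} (hA : IsGen (Brk.rot (ι := Fin n) i j)) (f : SmFr g) (p : Fr g)
    (s : ℝ) : (f : C(Fr g, ℝ)) (verFlow hA s p) = ev p (rotE (hA.on s) f) := rfl

/-- functions on the base -/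
theorem t0_of_group {f : SmFr g} (hf : (rotAct g).GT0 univ f) : (frCalc g).T0 f := by
  intro a b
  apply ext_ev
  intro p
  have hA := isGen_rot' (n := n) a b
  have h1 := hasDerivAt_Vd hA f p 0
  rw [verFlow_zero] at h1
  have h2 : (fun s => (f : C(Fr g, ℝ)) (verFlow hA s p)) = fun _ => ev p f := by
    funext s
    rw [ev_verFlow]
    congr 1
    exact hf (hA.on s) (mem_univ _)
  rw [h2] at h1
  exact h1.unique (hasDerivAt_const (0 : ℝ) _)

/-- vector fields -/
theorem t1_of_group {w : Fin n → SmFr g} (hw : (rotAct g).GT1 univ w) : (frCalc g).T1 w := by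
  intro a b i
  apply ext_ev
  intro p
  have hA := isGen_rot' (n := n) a b
  have h1 := hasDerivAt_Vd hA (w i) p 0
  rw [verFlow_zero] at h1
  have h2 : (fun s => (w i : C(Fr g, ℝ)) (verFlow hA s p)) =
      fun s => ∑ c, rotM (Brk.rot (ι := Fin n) a b) s c i * ev p (w c) := by
    funext s
    rw [ev_verFlow]
    have h3 := congrArg (ev p) (hw (hA.on s) (mem_univ _) i)
    rw [ev_rt] at h3
    exact h3
  rw [h2] at h1
  have h4 : HasDerivAt (fun s => ∑ c, rotM (Brk.rot (ι := Fin n) a b) s c i * ev p (w c))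
      (∑ c, Brk.rot (ι := Fin n) a b c i * ev p (w c)) 0 :=
    HasDerivAt.fun_sum fun c _ => (rotM_deriv hA c i).mul_const _
  have h5 := h1.unique h4
  rw [sum_rot_mul a b i fun c => ev p (w c)] at h5
  rw [ev_ac]
  exact h5

/-- tensors of rank two -/
theorem t2_of_group {k : Fin n → Fin n → SmFr g} (hk : (rotAct g).GT2 univ k) :
    (frCalc g).T2 k := by
  intro a b i j
  apply ext_ev
  intro p
  have hA := isGen_rot' (n := n) a b
  have h1 := hasDerivAt_Vd hA (k i j) p 0
  rw [verFlow_zero] at h1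
  have h2 : (fun s => (k i j : C(Fr g, ℝ)) (verFlow hA s p)) =
      fun s => ∑ c, rotM (Brk.rot (ι := Fin n) a b) s c i *
        ∑ d, rotM (Brk.rot (ι := Fin n) a b) s d j * ev p (k c d) := by
    funext s
    rw [ev_verFlow]
    have h3 := congrArg (ev p) (hk (hA.on s) (mem_univ _) i j)
    simp only [ev_rt] at h3
    exact h3
  rw [h2] at h1
  have h4 : HasDerivAt (fun s => ∑ c, rotM (Brk.rot (ι := Fin n) a b) s c i *
        ∑ d, rotM (Brk.rot (ι := Fin n) a b) s d j * ev p (k c d))
      (∑ c, (Brk.rot (ι := Fin n) a b c i *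
          (∑ d, rotM (Brk.rot (ι := Fin n) a b) 0 d j * ev p (k c d)) +
        rotM (Brk.rot (ι := Fin n) a b) 0 c i *
          ∑ d, Brk.rot (ι := Fin n) a b d j * ev p (k c d))) 0 :=
    HasDerivAt.fun_sum fun c _ => (rotM_deriv hA c i).mul
      (HasDerivAt.fun_sum fun d _ => (rotM_deriv hA d j).mul_const _)
  have h5 := h1.unique h4
  simp only [rotM_zero_apply, ite_mul, one_mul, zero_mul, Finset.sum_ite_eq', Finset.mem_univ,
    if_true, Finset.sum_add_distrib] at h5
  rw [sum_rot_mul a b i fun c => ev p (k c j), sum_rot_mul a b j fun d => ev p (k i d)] at h5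
  rw [ev_add, ev_ac, ev_ac]
  exact h5

end Vale.Agent.P207.H379
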