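import Vale.Agent.P207.H379.KatB

/-!
# P207 / H379: spectral theory of families in group form

`T1s C`, `T2s C`: the spaces of vector fields and of tensors of rank two (infinitesimal form).
From an `SSp` on them with `L = -cas` and the `L²` product: the families in group form
(`Kat.GT1`, `Kat.GT2`) are invariant subspaces.
-/

open scoped Manifold ContDiff ENNReal Topology
open Bundle MeasureTheory Set Filter

noncomputable section

set_option maxSynthPendingDepth 3
set_option linter.unusedSectionVars false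

namespace Vale.Agent.P207.H379

open Vale.Agent.P207.H442 Vale.Agent.P207.H395

section Abs

variable {n : ℕ} {A : Type*} [CommRing A] [Algebra ℝ A]

/-- vector fields -/
def T1s (C : FrCalc n A) : Submodule ℝ (Fin n → A) where
  carrier := {w | C.T1 w}
  add_mem' {w u} hw hu := FrCalc.T1.add hw hu
  zero_mem' := fun a b i => by simp [ac]
  smul_mem' c w hw := FrCalc.T1.smul c hw

theorem mem_T1s {C : FrCalc n A} {w : Fin n → A} : w ∈ T1s C ↔ C.T1 w := Iff.rfl

/-- tensors of rank two -/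
def T2s (C : FrCalc n A) : Submodule ℝ (Fin n → Fin n → A) where
  carrier := {w | C.T2 w}
  add_mem' {w u} hw hu := fun a b i j => by
    simp only [Pi.add_apply, map_add, hw a b i j, hu a b i j, ac_add]
    abel
  zero_mem' := fun a b i j => by simp [ac]
  smul_mem' c w hw := fun a b i j => by
    simp only [Pi.smul_apply, Derivation.map_smul, hw a b i j, ac_smul, smul_add]

theorem mem_T2s {C : FrCalc n A} {w : Fin n → Fin n → A} : w ∈ T2s C ↔ C.T2 w := Iff.rfl

variable {C : FrCalc n A} (S : OnAct C)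

/-- the action of the group on vector fields -/
def g1T (B : OnG n) : T1s C →ₗ[ℝ] T1s C :=
  (S.g1L B).restrict (p := T1s C) (q := T1s C) fun _ hw => S.g1_T1 B hw

theorem coe_g1T (B : OnG n) (w : T1s C) : (g1T S B w : Fin n → A) = S.g1 B w := rfl

/-- the action of the group on tensors of rank two -/
def g2T (B : OnG n) : T2s C →ₗ[ℝ] T2s C :=
  (S.g2L B).restrict (p := T2s C) (q := T2s C) fun _ hk => S.g2_T2 B hk

theorem coe_g2T (B : OnG n) (k : T2s C) : (g2T S B k : Fin n → Fin n → A) = S.g2 B k := rfl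

theorem T2_swap {k : Fin n → Fin n → A} (hk : C.T2 k) : C.T2 fun i j => k j i := fun a b i j => by
  rw [hk, add_comm]

variable (C) in
/-- the transposition of tensors of rank two -/
def swT : T2s C →ₗ[ℝ] T2s C where
  toFun k := ⟨fun i j => (k : Fin n → Fin n → A) j i, T2_swap k.2⟩
  map_add' _ _ := rfl
  map_smul' _ _ := rfl

theorem coe_swT (k : T2s C) (i j : Fin n) :
    (swT C k : Fin n → Fin n → A) i j = (k : Fin n → Fin n → A) j i := rfl

variable {I : A →ₗ[ℝ] ℝ}

/-- the spectral theory of vector fields: `L = -cas`, the `L²` product -/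
structure IsS1 (Q : SSp (T1s C)) (I : A →ₗ[ℝ] ℝ) : Prop where
  L : ∀ w i, (Q.L w : Fin n → A) i = - C.cas ((w : Fin n → A) i)
  ip : ∀ w u, Q.ip w u = ∑ i, I ((w : Fin n → A) i * (u : Fin n → A) i)

/-- the spectral theory of tensors of rank two: `L = -cas`, the `L²` product -/
structure IsS2 (Q : SSp (T2s C)) (I : A →ₗ[ℝ] ℝ) : Prop where
  L : ∀ k i j, (Q.L k : Fin n → Fin n → A) i j = - C.cas ((k : Fin n → Fin n → A) i j)
  ip : ∀ k h, Q.ip k h =
    ∑ i, ∑ j, I ((k : Fin n → Fin n → A) i j * (h : Fin n → Fin n → A) i j)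

theorem nt_g1T {Q : SSp (T1s C)} (hQ : IsS1 Q I) (hI : ∀ B f, I (S.σ B f) = I f) (B : OnG n) :
    SSp.Nt Q Q (g1T S B) where
  adj := ⟨g1T S B⁻¹, fun w u => by
    rw [hQ.ip, hQ.ip]
    exact S.g1_adj hI B w u⟩
  comm w := by
    apply Subtype.ext
    funext i
    rw [hQ.L, coe_g1T, coe_g1T, ← S.g1_cas]
    have h1 : (Q.L w : Fin n → A) = fun i => -C.cas ((w : Fin n → A) i) := funext (hQ.L w)
    rw [h1]
    have h2 := S.g1_smul B (-1) (fun i => C.cas ((w : Fin n → A) i)) i
    simp only [neg_smul, one_smul] at h2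
    exact h2

theorem nt_g2T {Q : SSp (T2s C)} (hQ : IsS2 Q I) (hI : ∀ B f, I (S.σ B f) = I f) (B : OnG n) :
    SSp.Nt Q Q (g2T S B) where
  adj := ⟨g2T S B⁻¹, fun w u => by
    rw [hQ.ip, hQ.ip]
    exact S.g2_adj hI B w u⟩
  comm w := by
    apply Subtype.ext
    funext i j
    rw [hQ.L, coe_g2T, coe_g2T, ← S.g2_cas]
    have h1 : (Q.L w : Fin n → Fin n → A) = fun i j => -C.cas ((w : Fin n → Fin n → A) i j) :=
      funext fun i => funext (hQ.L w i)
    rw [h1]
    have h2 := S.g2_smul B (-1) (fun i j => C.cas ((w : Fin n → Fin n → A) i j)) i j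
    simp only [neg_smul, one_smul] at h2
    exact h2

theorem nt_swT {Q : SSp (T2s C)} (hQ : IsS2 Q I) : SSp.Nt Q Q (swT C) where
  adj := ⟨swT C, fun w u => by
    rw [hQ.ip, hQ.ip, Finset.sum_comm]
    rfl⟩
  comm w := by
    apply Subtype.ext
    funext i j
    rw [hQ.L, coe_swT, coe_swT, hQ.L]

/-- vector fields in group form -/
def G1s : Submodule ℝ (T1s C) := ⨅ B : OnG n, LinearMap.ker (g1T S B - LinearMap.id)

/-- symmetric tensors in group form -/
def G2s : Submodule ℝ (T2s C) :=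
  (⨅ B : OnG n, LinearMap.ker (g2T S B - LinearMap.id)) ⊓ LinearMap.ker (swT C - LinearMap.id)

theorem mem_G1s {w : T1s C} : w ∈ G1s S ↔ S.GT1 univ (w : Fin n → A) := by
  unfold G1s
  rw [Submodule.mem_iInf, S.gt1_iff]
  refine ⟨fun h B _ => ?_, fun h B => ?_⟩
  · have h1 := h B
    rw [LinearMap.mem_ker, LinearMap.sub_apply, LinearMap.id_apply, sub_eq_zero] at h1
    exact congrArg Subtype.val h1
  · rw [LinearMap.mem_ker, LinearMap.sub_apply, LinearMap.id_apply, sub_eq_zero]
    exact Subtype.ext (h B (mem_univ _))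

theorem mem_G2s {k : T2s C} : k ∈ G2s S ↔ S.GT2 univ (k : Fin n → Fin n → A) ∧
    ∀ i j, (k : Fin n → Fin n → A) i j = (k : Fin n → Fin n → A) j i := by
  unfold G2s
  rw [Submodule.mem_inf, Submodule.mem_iInf, S.gt2_iff]
  refine and_congr ⟨fun h B _ => ?_, fun h B => ?_⟩ ⟨fun h i j => ?_, fun h => ?_⟩
  · have h1 := h B
    rw [LinearMap.mem_ker, LinearMap.sub_apply, LinearMap.id_apply, sub_eq_zero] at h1
    exact congrArg Subtype.val h1
  · rw [LinearMap.mem_ker, LinearMap.sub_apply, LinearMap.id_apply, sub_eq_zero]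
    exact Subtype.ext (h B (mem_univ _))
  · rw [LinearMap.mem_ker, LinearMap.sub_apply, LinearMap.id_apply, sub_eq_zero] at h
    have h1 := congrArg (fun z : T2s C => (z : Fin n → Fin n → A) i j) h
    exact h1.symm
  · rw [LinearMap.mem_ker, LinearMap.sub_apply, LinearMap.id_apply, sub_eq_zero]
    apply Subtype.ext
    funext i j
    exact (h i j).symm

theorem nsub_G1s {Q : SSp (T1s C)} (hQ : IsS1 Q I) (hI : ∀ B f, I (S.σ B f) = I f) :
    Q.Nsub (G1s S) :=
  SSp.Nsub.iInf fun B => ((nt_g1T S hQ hI B).sub (SSp.Nt.id Q)).ker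

theorem nsub_G2s {Q : SSp (T2s C)} (hQ : IsS2 Q I) (hI : ∀ B f, I (S.σ B f) = I f) :
    Q.Nsub (G2s S) :=
  (SSp.Nsub.iInf fun B => ((nt_g2T S hQ hI B).sub (SSp.Nt.id Q)).ker).inf
    ((nt_swT hQ).sub (SSp.Nt.id Q)).ker

end Abs

/-! ### the frame bundle -/

open Vale.Agent.P255 (RMetric)
open Vale.Agent.P207 Vale.Agent.P207.Q

variable {n : ℕ} {M : Type} [TopologicalSpace M] [ChartedSpace (EV n) M]
  [IsManifold 𝓘(ℝ, EV n) ∞ M] {g : RMetric (EV n) M}
variable [NeZero n] [CompactSpace M] [T2Space M] [Nonempty (Fr g)]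

theorem mem_G1s_iff {w : T1s (frCalc g)} :
    w ∈ G1s (rotAct g) ↔ Kat.GT1 (w : Fin n → SmFr g) := by
  rw [mem_G1s, gT1_iff']

theorem mem_G2s_iff {k : T2s (frCalc g)} :
    k ∈ G2s (rotAct g) ↔ Kat.GT2 (k : Fin n → Fin n → SmFr g) := by
  rw [mem_G2s, gT2_iff', and_comm]

/-- vector fields of `Kat` as elements of the space of vector fields -/
def mk1 {w : Fin n → SmFr g} (h : Kat.GT1 w) : G1s (rotAct g) :=
  ⟨⟨w, t1_of_GT1 h⟩, mem_G1s_iff.2 h⟩

/-- symmetric tensors of `Kat` as elements of the space of tensors -/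
def mk2 {k : Fin n → Fin n → SmFr g} (h : Kat.GT2 k) : G2s (rotAct g) :=
  ⟨⟨k, t2_of_GT2 h⟩, mem_G2s_iff.2 h⟩

theorem gt1_of_mem (w : G1s (rotAct g)) : Kat.GT1 ((w : T1s (frCalc g)) : Fin n → SmFr g) :=
  mem_G1s_iff.1 w.2

theorem gt2_of_mem (k : G2s (rotAct g)) :
    Kat.GT2 ((k : T2s (frCalc g)) : Fin n → Fin n → SmFr g) :=
  mem_G2s_iff.1 k.2

variable {m : Measure (UT g)} {mP : Measure (Fr g)} [IsFiniteMeasure mP]

/-- the spectral theory of the vector fields in group form -/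
def sp1 (hP : IsMP m mP) {Q : SSp (T1s (frCalc g))} (hQ : IsS1 Q (intF mP)) :
    SSp (G1s (rotAct g)) := Q.sub _ (nsub_G1s (rotAct g) hQ (intF_rotE hP))

/-- the spectral theory of the symmetric tensors in group form -/
def sp2 (hP : IsMP m mP) {Q : SSp (T2s (frCalc g))} (hQ : IsS2 Q (intF mP)) :
    SSp (G2s (rotAct g)) := Q.sub _ (nsub_G2s (rotAct g) hQ (intF_rotE hP))

end Vale.Agent.P207.H379
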